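import Vale.Agent.P192.H382.Cov

/-!
# P192: covers of groups of relative `p`-deficiency at least one; infinite `p`-groups
-/

namespace Vale.Agent.P192.H382

variable {ι : Type*} [Fintype ι] {A : ι → Type*} [∀ j, Group (A j)] {X : Type*} [Fintype X]

theorem fg_fprod (hA : ∀ j, Group.FG (A j)) : Group.FG (FProd A X) := by
  classical
  rw [Group.fg_iff]
  choose T hT hfin using fun j => (Group.fg_iff (G := A j)).mp (hA j)
  refine ⟨(⋃ j, incl (A := A) (X := X) j '' T j) ∪ Set.range (gen (A := A)), ?_, ?_⟩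
  · rw [eq_top_iff, ← Monoid.Coprod.range_inl_sup_range_inr]
    refine sup_le ?_ ?_
    · rw [MonoidHom.range_eq_map, Subgroup.map_le_iff_le_comap]
      have h1 : (⊤ : Subgroup (Monoid.CoprodI A)) = ⨆ j, (Monoid.CoprodI.of (M := A) (i := j)).range := by
        rw [← Monoid.CoprodI.range_eq_iSup, Monoid.CoprodI.lift_of', MonoidHom.range_eq_top.mpr]
        exact Function.surjective_id
      rw [h1]
      refine iSup_le fun j => ?_
      rw [MonoidHom.range_eq_map, Subgroup.map_le_iff_le_comap, ← hT j, Subgroup.closure_le]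
      intro a ha
      refine Subgroup.subset_closure (Or.inl (Set.mem_iUnion.mpr ⟨j, ?_⟩))
      exact ⟨a, ha, rfl⟩
    · rw [MonoidHom.range_eq_map, Subgroup.map_le_iff_le_comap, ← FreeGroup.closure_range_of,
        Subgroup.closure_le]
      rintro _ ⟨x, rfl⟩
      exact Subgroup.subset_closure (Or.inr ⟨x, rfl⟩)
  · exact (Set.finite_iUnion fun j => (hfin j).image _).union (Set.finite_range _)

variable {p : ℕ} [hp : Fact p.Prime] {K : Type*} [Fintype K] {C : K → Type*}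
  [∀ k, Group (C k)] [∀ k, Finite (C k)]

/-- **Covers.** -/
theorem covers (hA : ∀ j, Group.FG (A j)) (α β : ∀ k, C k →* FProd A X)
    {Q₁ : Type} [Group Q₁] [Finite Q₁] (π₁ : Amalg α β →* Q₁) {I : Type*}
    (w : I → Amalg α β) (q s : I → ℕ) (hq : ∀ i, q i = orderOf (π₁ (w i)) * p ^ s i)
    (hsum : ∀ F : Finset I, ∑ i ∈ F, (1 : ℝ) / q i +
      ∑ j, (1 : ℝ) / Nat.card ((fac α β j).map π₁) + ∑ k, (1 - (1 : ℝ) / Nat.card (C k)) ≤
        Fintype.card ι + Fintype.card X - 1)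
    {Γ : Type*} [Group Γ] [Group.IsFinitelyPresented Γ]
    (φ : Γ →* Amalg α β ⧸ Subgroup.normalClosure (Set.range fun i => w i ^ q i))
    (hφ : φ.range.FiniteIndex) : VirtZ Γ := by
  have h0 : Group.FG (FProd A X) := fg_fprod hA
  have : Group.FG (Amalg α β) := inferInstance
  obtain ⟨F, ψ, hψ⟩ := exists_lift (fun i => w i ^ q i) φ hφ
  obtain ⟨H, -, hH, hf⟩ := fin_case (p := p) α β π₁ (fun i : F => w i) (fun i : F => q i)
    (fun i : F => s i) (fun i => hq i) (by
      have := hsum F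
      rwa [← Finset.sum_coe_sort F fun i => (1 : ℝ) / q i] at this)
  exact VirtZ.of_range ψ hψ ⟨H, hH, hf⟩

theorem not_virtZ_of_finite (G : Type*) [Group G] [Finite G] : ¬ VirtZ G := fun h => by
  obtain ⟨g, hg⟩ := h.not_periodic
  exact hg (isOfFinOrder_of_finite g)

/-- **Infinite periodic quotients.** -/
theorem exists_periodic (hA : ∀ j, Group.FG (A j)) (α β : ∀ k, C k →* FProd A X)
    {Q₁ : Type} [Group Q₁] [Finite Q₁] (π₁ : Amalg α β →* Q₁)
    (hsum : ∑ j, (1 : ℝ) / Nat.card ((fac α β j).map π₁) + ∑ k, (1 - (1 : ℝ) / Nat.card (C k)) <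
      Fintype.card ι + Fintype.card X - 1) :
    ∃ q s : Amalg α β → ℕ, (∀ g, q g = orderOf (π₁ g) * p ^ s g) ∧
      (∀ F : Finset (Amalg α β), ∑ g ∈ F, (1 : ℝ) / q g +
        ∑ j, (1 : ℝ) / Nat.card ((fac α β j).map π₁) + ∑ k, (1 - (1 : ℝ) / Nat.card (C k)) ≤
          Fintype.card ι + Fintype.card X - 1) ∧
      (∀ x : Amalg α β ⧸ Subgroup.normalClosure (Set.range fun g => g ^ q g),
        IsOfFinOrder x) ∧
      Infinite (Amalg α β ⧸ Subgroup.normalClosure (Set.range fun g => g ^ q g)) := by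
  classical
  have hfg0 : Group.FG (FProd A X) := fg_fprod hA
  have hfg : Group.FG (Amalg α β) := inferInstance
  have hcount : Countable (Amalg α β) := by
    obtain ⟨T, hT, f, hf⟩ := Group.fg_iff_exists_freeGroup_hom_surjective_finite.mp hfg
    exact hf.countable
  obtain ⟨e, he⟩ := exists_injective_nat (Amalg α β)
  set ε : ℝ := Fintype.card ι + Fintype.card X - 1 -
    (∑ j, (1 : ℝ) / Nat.card ((fac α β j).map π₁) + ∑ k, (1 - (1 : ℝ) / Nat.card (C k))) with hε
  have hεpos : 0 < ε := by linarith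
  obtain ⟨c, hc⟩ : ∃ c : ℕ, (1 / 2 : ℝ) ^ c < ε / 2 :=
    exists_pow_lt_of_lt_one (by positivity) (by norm_num)
  let s : Amalg α β → ℕ := fun g => c + e g
  let q : Amalg α β → ℕ := fun g => orderOf (π₁ g) * p ^ s g
  have hs2 : ∀ F : Finset (Amalg α β), ∑ g ∈ F, (1 : ℝ) / q g +
      ∑ j, (1 : ℝ) / Nat.card ((fac α β j).map π₁) + ∑ k, (1 - (1 : ℝ) / Nat.card (C k)) ≤
        Fintype.card ι + Fintype.card X - 1 := by
    intro F
    have hp2 : (2 : ℝ) ≤ p := by exact_mod_cast hp.out.two_le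
    have h1 : ∑ g ∈ F, (1 : ℝ) / q g ≤ ∑ g ∈ F, (1 / 2 : ℝ) ^ c * (1 / 2 : ℝ) ^ e g := by
      refine Finset.sum_le_sum fun g _ => ?_
      rw [← pow_add, one_div_pow]
      refine one_div_le_one_div_of_le (by positivity) ?_
      have h0 : (1 : ℝ) ≤ orderOf (π₁ g) := by exact_mod_cast orderOf_pos (π₁ g)
      calc (2 : ℝ) ^ (c + e g) ≤ p ^ s g := pow_le_pow_left₀ (by norm_num) hp2 _
        _ ≤ orderOf (π₁ g) * p ^ s g := le_mul_of_one_le_left (by positivity) h0
        _ = q g := by simp [q]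
    have h2 : ∑ g ∈ F, (1 / 2 : ℝ) ^ e g ≤ 2 := by
      have h3 : ∑ g ∈ F, (1 / 2 : ℝ) ^ e g = ∑ n ∈ F.image e, (1 / 2 : ℝ) ^ n := by
        rw [Finset.sum_image fun a _ b _ h => he h]
      rw [h3]
      have h5 := (summable_geometric_two).sum_le_tsum (F.image e) (fun n _ => by positivity)
      rwa [tsum_geometric_two] at h5
    rw [← Finset.mul_sum] at h1
    have h4 : (1 / 2 : ℝ) ^ c * ∑ g ∈ F, (1 / 2 : ℝ) ^ e g ≤ (1 / 2 : ℝ) ^ c * 2 :=
      mul_le_mul_of_nonneg_left h2 (by positivity)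
    linarith
  refine ⟨q, s, fun g => rfl, hs2, ?_, ?_⟩
  · intro g
    obtain ⟨g, rfl⟩ := QuotientGroup.mk_surjective g
    rw [isOfFinOrder_iff_pow_eq_one]
    refine ⟨q g, Nat.mul_pos (orderOf_pos _) (pow_pos hp.out.pos _), ?_⟩
    rw [← QuotientGroup.mk_pow]
    exact (QuotientGroup.eq_one_iff _).mpr (Subgroup.subset_normalClosure ⟨g, rfl⟩)
  · by_contra hinf
    rw [not_infinite_iff_finite] at hinf
    refine not_virtZ_of_finite Unit
      (covers (p := p) hA α β π₁ (fun g => g) q s (fun g => rfl) hs2 1 ?_)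
    exact inferInstance

end Vale.Agent.P192.H382
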