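import Vale.Agent.P192.H382.Fin

/-!
# P192: finitely presented covers
-/

namespace Vale.Agent.P192.H382

variable {L : Type*} [Group L] {I : Type*} (r : I → L)

/-- elements of a normal closure are in the normal closure of finitely many generators -/
theorem mem_normalClosure_range {x : L} (hx : x ∈ Subgroup.normalClosure (Set.range r)) :
    ∃ F : Finset I, x ∈ Subgroup.normalClosure (r '' (F : Set I)) := by
  classical
  let K : Subgroup L :=
    { carrier := {x | ∃ F : Finset I, x ∈ Subgroup.normalClosure (r '' (F : Set I))}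
      mul_mem' := by
        rintro a b ⟨F, hF⟩ ⟨F', hF'⟩
        refine ⟨F ∪ F', mul_mem ?_ ?_⟩
        · exact Subgroup.normalClosure_mono (Set.image_mono (by simp)) hF
        · exact Subgroup.normalClosure_mono (Set.image_mono (by simp)) hF'
      one_mem' := ⟨∅, one_mem _⟩
      inv_mem' := by
        rintro a ⟨F, hF⟩
        exact ⟨F, inv_mem hF⟩ }
  have hK : K.Normal := ⟨by
    rintro a ⟨F, hF⟩ g
    exact ⟨F, Subgroup.normalClosure_normal.conj_mem a hF g⟩⟩
  have h1 : Subgroup.normalClosure (Set.range r) ≤ K := by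
    refine Subgroup.normalClosure_le_normal ?_
    rintro _ ⟨i, rfl⟩
    exact ⟨{i}, Subgroup.subset_normalClosure ⟨i, by simp, rfl⟩⟩
  exact h1 hx

theorem mem_finset_range {T : Set L} (hT : T.Finite)
    (h : T ⊆ Subgroup.normalClosure (Set.range r)) :
    ∃ F : Finset I, T ⊆ Subgroup.normalClosure (r '' (F : Set I)) := by
  classical
  have h1 : ∀ x : T, ∃ F : Finset I, (x : L) ∈ Subgroup.normalClosure (r '' (F : Set I)) :=
    fun x => mem_normalClosure_range r (h x.2)
  choose F hF using h1
  have : Fintype T := hT.fintype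
  refine ⟨Finset.univ.biUnion F, fun x hx => ?_⟩
  refine Subgroup.normalClosure_mono (Set.image_mono ?_) (hF ⟨x, hx⟩)
  intro i hi
  simp only [Finset.coe_biUnion, Finset.coe_univ, Set.mem_univ, Set.iUnion_true, Set.mem_iUnion]
  exact ⟨⟨x, hx⟩, hi⟩

/-- **Lifting.** A homomorphism from a finitely presented group to a quotient of a finitely
generated group, with image of finite index, lifts to the quotient by finitely many of the
relators, with image of finite index. -/
theorem exists_lift [Group.FG L] {Γ : Type*} [Group Γ] [Group.IsFinitelyPresented Γ]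
    (φ : Γ →* L ⧸ Subgroup.normalClosure (Set.range r)) (hφ : φ.range.FiniteIndex) :
    ∃ (F : Finset I) (ψ : Γ →* L ⧸ Subgroup.normalClosure (Set.range fun i : F => r i)),
      ψ.range.FiniteIndex := by
  classical
  set N := Subgroup.normalClosure (Set.range r) with hN
  obtain ⟨n, φ₀, hφ₀, S, hS, hker⟩ := (inferInstance : Group.IsFinitelyPresented Γ).out
  choose l hl using fun k : Fin n => QuotientGroup.mk'_surjective N (φ (φ₀ (FreeGroup.of k)))
  let θ : FreeGroup (Fin n) →* L := FreeGroup.lift l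
  have hθ : ∀ v, (QuotientGroup.mk' N) (θ v) = φ (φ₀ v) := by
    intro v
    have : (QuotientGroup.mk' N).comp θ = φ.comp φ₀ := by
      refine FreeGroup.ext_hom _ _ fun k => ?_
      simp only [MonoidHom.comp_apply, θ, FreeGroup.lift_apply_of]
      exact hl k
    exact DFunLike.congr_fun this v
  -- the relators of `Γ`
  obtain ⟨F₁, hF₁⟩ := mem_finset_range r (hS.image θ) (by
    rintro _ ⟨v, hv, rfl⟩
    have h1 : v ∈ φ₀.ker := by rw [← hker]; exact Subgroup.subset_normalClosure hv
    have h2 := hθ v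
    rw [MonoidHom.mem_ker.mp h1, map_one] at h2
    exact (QuotientGroup.eq_one_iff _).mp h2)
  -- the generators of the preimage of the image
  let L' : Subgroup L := φ.range.comap (QuotientGroup.mk' N)
  have hL'fin : L'.FiniteIndex := ⟨by
    rw [Subgroup.index_comap_of_surjective _ (QuotientGroup.mk'_surjective N)]
    exact hφ.index_ne_zero⟩
  have hL'fg : Group.FG L' := inferInstance
  obtain ⟨T, hT, hTfin⟩ := (Subgroup.fg_iff L').mp ((Group.fg_iff_subgroup_fg L').mp hL'fg)
  have hTw : ∀ t : T, ∃ v, (t : L)⁻¹ * θ v ∈ N := by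
    rintro ⟨t, ht⟩
    have h1 : t ∈ L' := by rw [← hT]; exact Subgroup.subset_closure ht
    obtain ⟨γ, hγ⟩ := h1
    obtain ⟨v, rfl⟩ := hφ₀ γ
    refine ⟨v, ?_⟩
    rw [← QuotientGroup.eq]
    have := hθ v
    rw [hγ] at this
    exact this.symm
  choose v hv using hTw
  obtain ⟨F₂, hF₂⟩ := mem_finset_range r (T := Set.range fun t : T => (t : L)⁻¹ * θ (v t))
    (by have := hTfin.fintype; exact Set.finite_range _) (by rintro _ ⟨t, rfl⟩; exact hv t)
  let F := F₁ ∪ F₂
  set N' := Subgroup.normalClosure (Set.range fun i : F => r i) with hN'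
  have hN'eq : ∀ F' : Finset I, F' ⊆ F → Subgroup.normalClosure (r '' (F' : Set I)) ≤ N' := by
    intro F' hF'
    refine Subgroup.normalClosure_mono ?_
    rintro _ ⟨i, hi, rfl⟩
    exact ⟨⟨i, hF' hi⟩, rfl⟩
  have hle : φ₀.ker ≤ ((QuotientGroup.mk' N').comp θ).ker := by
    rw [← hker]
    refine Subgroup.normalClosure_le_normal ?_
    intro x hx
    refine (QuotientGroup.eq_one_iff _).mpr ?_
    exact hN'eq F₁ Finset.subset_union_left (hF₁ ⟨x, hx, rfl⟩)
  let ψ : Γ →* L ⧸ N' := φ₀.liftOfSurjective hφ₀ ⟨(QuotientGroup.mk' N').comp θ, hle⟩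
  have hψ : ∀ x, ψ (φ₀ x) = QuotientGroup.mk' N' (θ x) := fun x =>
    MonoidHom.liftOfRightInverse_comp_apply _ _ _ _ _
  refine ⟨F, ψ, ?_⟩
  have h1 : L'.map (QuotientGroup.mk' N') ≤ ψ.range := by
    rw [← hT, MonoidHom.map_closure, Subgroup.closure_le]
    rintro _ ⟨t, ht, rfl⟩
    refine ⟨φ₀ (v ⟨t, ht⟩), ?_⟩
    rw [hψ]
    refine (QuotientGroup.eq.mpr ?_).symm
    exact hN'eq F₂ Finset.subset_union_right (hF₂ ⟨⟨t, ht⟩, rfl⟩)
  have h2 : (L'.map (QuotientGroup.mk' N')).FiniteIndex := ⟨by
    have h3 := Subgroup.index_map_dvd (H := L') (f := QuotientGroup.mk' N')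
      (QuotientGroup.mk'_surjective N')
    intro h0
    rw [h0] at h3
    exact hL'fin.index_ne_zero (Nat.eq_zero_of_zero_dvd h3)⟩
  exact Subgroup.finiteIndex_of_le h1

end Vale.Agent.P192.H382
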