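import Mathlib

/-!
# P192: derivations of groups with values in regular modules, rank count
-/

namespace Vale.Agent.P192.H382

open Module

variable {L : Type*} [Group L] {Q : Type*} [Group Q]

/-- right translation of integer valued functions -/
def act (q : Q) : (Q → ℤ) →ₗ[ℤ] (Q → ℤ) := LinearMap.funLeft ℤ ℤ (fun x => x * q)

@[simp] theorem act_apply (q : Q) (v : Q → ℤ) (x : Q) : act q v x = v (x * q) := rfl

theorem act_mul (q r : Q) (v : Q → ℤ) : act (q * r) v = act q (act r v) := by
  ext x; simp [mul_assoc]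

@[simp] theorem act_one (v : Q → ℤ) : act (1 : Q) v = v := by ext x; simp

variable {W : Type*} [AddCommGroup W]

/-- derivations with values in the linear maps from `W` to the regular module -/
def IsDer (π : L →* Q) (T : L → (W →ₗ[ℤ] (Q → ℤ))) : Prop :=
  ∀ g h w, T (g * h) w = T g w + act (π g) (T h w)

variable {π : L →* Q} {T : L → (W →ₗ[ℤ] (Q → ℤ))}

theorem IsDer.one (hT : IsDer π T) (w : W) : T 1 w = 0 := by
  have := hT 1 1 w
  simpa using this

theorem IsDer.pow_inv (hT : IsDer π T) {g : L} {q : ℕ} (hq : π g ^ q = 1) (w : W) :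
    act (π g) (T (g ^ q) w) = T (g ^ q) w := by
  have h1 := hT g (g ^ q) w
  have h2 := hT (g ^ q) g w
  rw [map_pow, hq, act_one] at h2
  rw [← pow_succ, pow_succ', h1] at h2
  exact add_left_cancel (h2.trans (add_comm _ _))

theorem coset_const {g : Q} {v : Q → ℤ} (h : act g v = v) (x y : Q)
    (hxy : (x : Q ⧸ Subgroup.zpowers g) = y) : v x = v y := by
  have h1 : ∀ (n : ℕ) (x : Q), v (x * g ^ n) = v x := by
    intro n
    induction n with
    | zero => intro x; simp
    | succ n ih =>
      intro x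
      rw [pow_succ, ← mul_assoc, ← act_apply g v, h, ih]
  have h2 : ∀ (n : ℤ) (x : Q), v (x * g ^ n) = v x := by
    intro n x
    obtain ⟨m, rfl | rfl⟩ := n.eq_nat_or_neg
    · rw [zpow_natCast]; exact h1 m x
    · have := h1 m (x * g ^ (-(m : ℤ)))
      rw [← this, mul_assoc]
      congr 1
      simp
  rw [QuotientGroup.eq] at hxy
  obtain ⟨n, hn⟩ := hxy
  have : y = x * g ^ n := by rw [show g ^ n = x⁻¹ * y from hn]; simp
  rw [this, h2]

/-- the common kernel -/
def Zer (T : L → (W →ₗ[ℤ] (Q → ℤ))) : Submodule ℤ W := ⨅ g, LinearMap.ker (T g)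

omit [Group L] [Group Q] in
theorem mem_Zer {w : W} : w ∈ Zer T ↔ ∀ g, T g w = 0 := by
  simp [Zer]

theorem finrank_rn {M N : Type*} [AddCommGroup M] [AddCommGroup N] [Module.Finite ℤ M]
    (f : M →ₗ[ℤ] N) : finrank ℤ (LinearMap.range f) + finrank ℤ (LinearMap.ker f) =
      finrank ℤ M := by
  rw [← Submodule.finrank_quotient_add_finrank (LinearMap.ker f),
    LinearEquiv.finrank_eq f.quotKerEquivRange]

variable [Fintype Q]

theorem card_not_rep (R : Subgroup Q) :
    Nat.card {x : Q // ¬ (Quotient.out (x : Q ⧸ R) : Q) = x} ≤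
      Fintype.card Q - Nat.card (Q ⧸ R) := by
  classical
  have h1 : Nat.card (Q ⧸ R) ≤ Nat.card {x : Q // (Quotient.out (x : Q ⧸ R) : Q) = x} := by
    refine Nat.card_le_card_of_injective
      (fun c : Q ⧸ R => (⟨c.out, by rw [QuotientGroup.out_eq']⟩ :
        {x : Q // (Quotient.out (x : Q ⧸ R) : Q) = x})) ?_
    intro c d h
    have h2 : c.out = d.out := congrArg Subtype.val h
    rw [← QuotientGroup.out_eq' c, ← QuotientGroup.out_eq' d]
    exact congrArg _ h2
  have h2 := Fintype.card_subtype_compl (fun x : Q => (Quotient.out (x : Q ⧸ R) : Q) = x)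
  rw [Nat.card_eq_fintype_card, Nat.card_eq_fintype_card] at h1
  rw [Nat.card_eq_fintype_card, Nat.card_eq_fintype_card, h2]
  omega

/-- **Rank count.** -/
theorem exists_der [Module.Finite ℤ W] (hT : IsDer π T) (hπ : Function.Surjective π)
    {J : Type*} [Fintype J] (w : J → L) (q : J → ℕ) (hq : ∀ j, orderOf (π (w j)) = q j)
    {K : Type*} [Fintype K] (C : K → Type*) [∀ k, Group (C k)] [∀ k, Fintype (C k)]
    (α β : ∀ k, C k →* L) (hαβ : ∀ k c, π (α k c) = π (β k c))
    (hrank : ∑ j, Fintype.card Q / q j +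
      ∑ k, (Fintype.card Q - Nat.card (Q ⧸ (π.comp (α k)).range)) + finrank ℤ (Zer T) +
      (Fintype.card Q - 1) < finrank ℤ W) :
    ∃ w₀ : W, (∀ j, T (w j ^ q j) w₀ = 0) ∧ (∀ k c, T (α k c) w₀ = T (β k c) w₀) ∧
      ∃ g ∈ π.ker, T g w₀ ≠ 0 := by
  classical
  by_contra hcon
  push Not at hcon
  obtain ⟨σ, hσ⟩ := hπ.hasRightInverse
  let u : W →ₗ[ℤ] (Q → ℤ) := ∑ x : Q, T (σ x)
  let Ψ : W →ₗ[ℤ] (Q → ℤ) := u - (LinearMap.pi fun _ : Q => (LinearMap.proj (1 : Q)).comp u)
  let v : K → W →ₗ[ℤ] (Q → ℤ) := fun k => ∑ c : C k, (T (α k c) - T (β k c))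
  let rep : K → Q → Q := fun k x => Quotient.out (x : Q ⧸ (π.comp (α k)).range)
  let Υ : K → W →ₗ[ℤ] (Q → ℤ) := fun k => v k - (LinearMap.funLeft ℤ ℤ (rep k)).comp (v k)
  let Ω : W →ₗ[ℤ] ((J → Q → ℤ) × (K → Q → ℤ)) × (Q → ℤ) :=
    ((LinearMap.pi fun j => T (w j ^ q j)).prod (LinearMap.pi Υ)).prod Ψ
  have hker : LinearMap.ker Ω ≤ Zer T := by
    intro w₀ hw
    rw [LinearMap.mem_ker] at hw
    have h1 : ∀ j, T (w j ^ q j) w₀ = 0 := fun j =>
      congrFun (congrArg Prod.fst (congrArg Prod.fst hw)) j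
    have h1' : ∀ k, Υ k w₀ = 0 := fun k =>
      congrFun (congrArg Prod.snd (congrArg Prod.fst hw)) k
    have h2 : Ψ w₀ = 0 := congrArg Prod.snd hw
    have h1'' : ∀ k c, T (α k c) w₀ = T (β k c) w₀ := by
      intro k c
      let d : C k → Q → ℤ := fun c => T (α k c) w₀ - T (β k c) w₀
      have hd : ∀ c c', d (c * c') = d c + act (π (α k c)) (d c') := by
        intro c c'
        simp only [d, map_mul]
        rw [hT (α k c), hT (β k c), hαβ, map_sub]
        abel
      have hv : v k w₀ = ∑ c, d c := by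
        simp [v, d, LinearMap.sum_apply]
      have hv1 : ∑ c', d (c * c') = v k w₀ := by
        rw [hv]
        exact Fintype.sum_equiv (Equiv.mulLeft c) _ _ fun _ => rfl
      have hv2 : ∑ c', d (c * c') = (Fintype.card (C k) : ℤ) • d c +
          act (π (α k c)) (v k w₀) := by
        simp only [hd, Finset.sum_add_distrib, Finset.sum_const, Finset.card_univ, hv, map_sum]
        congr 1
      have hv3 : ∀ x y : Q, (x : Q ⧸ (π.comp (α k)).range) = y → v k w₀ x = v k w₀ y := by
        have h0 : ∀ x, v k w₀ x = v k w₀ (rep k x) := by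
          intro x
          have := congrFun (h1' k) x
          have h3 : v k w₀ x - v k w₀ (rep k x) = 0 := this
          linarith
        intro x y hxy
        rw [h0 x, h0 y]
        simp only [rep, hxy]
      have hv4 : act (π (α k c)) (v k w₀) = v k w₀ := by
        ext x
        rw [act_apply]
        refine hv3 _ _ ?_
        rw [QuotientGroup.eq]
        refine Subgroup.inv_mem_iff _ |>.mp ?_
        simp only [mul_inv_rev, inv_inv, inv_mul_cancel_left]
        exact ⟨c, rfl⟩
      rw [hv1, hv4] at hv2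
      have h9 : (Fintype.card (C k) : ℤ) • d c = 0 := add_eq_right.mp hv2.symm
      have hc : (Fintype.card (C k) : ℤ) ≠ 0 := by
        have : Fintype.card (C k) ≠ 0 := Fintype.card_ne_zero
        exact_mod_cast this
      have h10 : d c = 0 := by
        ext x
        have := congrFun h9 x
        simp only [Pi.smul_apply, smul_eq_mul, Pi.zero_apply, mul_eq_zero, hc, false_or] at this
        exact this
      exact sub_eq_zero.mp h10
    have h3 := hcon w₀ h1 h1''
    have h4 : ∀ x, u w₀ x = u w₀ 1 := by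
      intro x
      have := congrFun h2 x
      simp only [Ψ, LinearMap.sub_apply, Pi.sub_apply, LinearMap.pi_apply, LinearMap.comp_apply,
        LinearMap.proj_apply, Pi.zero_apply] at this
      linarith
    have h5 : ∀ g h, π g = π h → T g w₀ = T h w₀ := by
      intro g h hgh
      have hk : g⁻¹ * h ∈ π.ker := by
        rw [MonoidHom.mem_ker, map_mul, map_inv, hgh, inv_mul_cancel]
      have := hT g (g⁻¹ * h) w₀
      rw [h3 _ hk, map_zero, add_zero, mul_inv_cancel_left] at this
      exact this.symm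
    rw [mem_Zer]
    intro g
    have h6 : ∑ x : Q, T (g * σ x) w₀ = u w₀ := by
      simp only [u, LinearMap.sum_apply]
      refine Fintype.sum_equiv (Equiv.mulLeft (π g)) _ _ fun x => ?_
      refine h5 _ _ ?_
      rw [map_mul, hσ, Equiv.coe_mulLeft, hσ]
    have h7 : ∑ x : Q, T (g * σ x) w₀ = (Fintype.card Q : ℤ) • T g w₀ + act (π g) (u w₀) := by
      simp only [hT g, Finset.sum_add_distrib, u, LinearMap.sum_apply, map_sum,
        Finset.sum_const, Finset.card_univ]
      congr 1
    have h8 : act (π g) (u w₀) = u w₀ := by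
      ext x; rw [act_apply, h4, h4 x]
    rw [h6, h8] at h7
    have h9 : (Fintype.card Q : ℤ) • T g w₀ = 0 := by
      have := h7.symm
      exact add_eq_right.mp this
    have hc : (Fintype.card Q : ℤ) ≠ 0 := by
      have : Fintype.card Q ≠ 0 := Fintype.card_ne_zero
      exact_mod_cast this
    ext x
    have := congrFun h9 x
    simp only [Pi.smul_apply, smul_eq_mul, Pi.zero_apply, mul_eq_zero, hc, false_or] at this
    exact this
  -- the range
  let Θ : (((∀ j, Q ⧸ Subgroup.zpowers (π (w j)) → ℤ) × (∀ k, {x : Q // rep k x ≠ x} → ℤ)) ×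
      ({x : Q // x ≠ 1} → ℤ)) →ₗ[ℤ] ((J → Q → ℤ) × (K → Q → ℤ)) × (Q → ℤ) :=
    { toFun := fun c => ((fun j x => c.1.1 j x, fun k x => if h : rep k x = x then 0 else
        c.1.2 k ⟨x, h⟩), fun x => if h : x = 1 then 0 else c.2 ⟨x, h⟩)
      map_add' := by
        intro c d
        refine Prod.ext (Prod.ext ?_ ?_) ?_
        · rfl
        · funext k x
          by_cases h : rep k x = x <;> simp [h]
        · funext x
          by_cases h : x = 1 <;> simp [h]
      map_smul' := by
        intro r c
        refine Prod.ext (Prod.ext ?_ ?_) ?_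
        · rfl
        · funext k x
          by_cases h : rep k x = x <;> simp [h]
        · funext x
          by_cases h : x = 1 <;> simp [h] }
  have hrange : LinearMap.range Ω ≤ LinearMap.range Θ := by
    rintro _ ⟨w₀, rfl⟩
    refine ⟨((fun j c => T (w j ^ q j) w₀ c.out, fun k x => Υ k w₀ x.1), fun x => Ψ w₀ x.1), ?_⟩
    refine Prod.ext (Prod.ext ?_ ?_) ?_
    · funext j x
      refine coset_const (hT.pow_inv (by rw [← hq j]; exact pow_orderOf_eq_one _) w₀) _ _ ?_
      exact QuotientGroup.out_eq' _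
    · funext k x
      by_cases h : rep k x = x
      · have h2 : Υ k w₀ x = 0 := by
          change v k w₀ x - v k w₀ (rep k x) = 0
          rw [h, sub_self]
        simp only [Θ, Ω, LinearMap.coe_mk, AddHom.coe_mk, dif_pos h]
        exact h2.symm
      · simp only [Θ, Ω, LinearMap.coe_mk, AddHom.coe_mk, dif_neg h]
        rfl
    · funext x
      by_cases h : x = 1
      · simp [Θ, Ω, Ψ, h]
      · simp [Θ, Ω, Ψ, h]
  have hr1 : finrank ℤ (LinearMap.range Ω) ≤ finrank ℤ (LinearMap.range Θ) :=
    Submodule.finrank_mono hrange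
  have hr2 : finrank ℤ (LinearMap.range Θ) ≤ ∑ j, Fintype.card Q / q j +
      ∑ k, (Fintype.card Q - Nat.card (Q ⧸ (π.comp (α k)).range)) + (Fintype.card Q - 1) := by
    refine (LinearMap.finrank_range_le Θ).trans ?_
    rw [Module.finrank_prod, Module.finrank_prod, Module.finrank_pi_fintype,
      Module.finrank_pi_fintype]
    simp only [Module.finrank_pi]
    refine Nat.add_le_add (Nat.add_le_add ?_ ?_) ?_
    · refine Finset.sum_le_sum fun j _ => ?_
      rw [← Nat.card_eq_fintype_card, ← Nat.card_eq_fintype_card, ← hq j,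
        ← Nat.card_zpowers, Subgroup.card_eq_card_quotient_mul_card_subgroup
          (Subgroup.zpowers (π (w j)))]
      rw [Nat.mul_div_cancel _ Nat.card_pos]
    · refine Finset.sum_le_sum fun k _ => ?_
      rw [← Nat.card_eq_fintype_card]
      exact card_not_rep _
    · simp [Fintype.card_subtype_compl]
  have hr3 : finrank ℤ (LinearMap.ker Ω) ≤ finrank ℤ (Zer T) := Submodule.finrank_mono hker
  have := finrank_rn Ω
  omega

end Vale.Agent.P192.H382
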