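import Mathlib

/-!
# P192: a lemma on normal `p`-subgroups of finite groups; dropping relators
-/

namespace Vale.Agent.P192.H382

variable {p : ℕ} [hp : Fact p.Prime]

/-- central elements of order dividing `p` of a subgroup -/
def omg (p : ℕ) {P : Type*} [Group P] (R : Subgroup P) : Subgroup P where
  carrier := {z | z ∈ R ∧ (∀ g ∈ R, g * z = z * g) ∧ z ^ p = 1}
  one_mem' := ⟨one_mem _, by simp, one_pow _⟩
  mul_mem' := by
    rintro a b ⟨h1, h2, h3⟩ ⟨h4, h5, h6⟩
    refine ⟨mul_mem h1 h4, fun g hg => ?_, ?_⟩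
    · rw [← mul_assoc, h2 g hg, mul_assoc, h5 g hg, mul_assoc]
    · rw [(show Commute a b from h5 a h1).mul_pow, h3, h6, one_mul]
  inv_mem' := by
    rintro a ⟨h1, h2, h3⟩
    refine ⟨inv_mem h1, fun g hg => ?_, by rw [inv_pow, h3, inv_one]⟩
    exact (show Commute g a from h2 g hg).inv_right

omit hp in
theorem omg_normal {P : Type*} [Group P] (R : Subgroup P) [hR : R.Normal] :
    (omg p R).Normal := by
  refine ⟨fun z hz g => ?_⟩
  obtain ⟨h1, h2, h3⟩ := hz
  refine ⟨hR.conj_mem z h1 g, fun h hh => ?_, ?_⟩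
  · have h4 : g⁻¹ * h * g ∈ R := by simpa using hR.conj_mem h hh g⁻¹
    have h5 := h2 _ h4
    calc h * (g * z * g⁻¹) = g * ((g⁻¹ * h * g) * z) * g⁻¹ := by group
      _ = g * (z * (g⁻¹ * h * g)) * g⁻¹ := by rw [h5]
      _ = g * z * g⁻¹ * h := by group
  · rw [conj_pow, h3, mul_one, mul_inv_cancel]

theorem exists_omg {P : Type*} [Group P] [Finite P] (R : Subgroup P) (hP : IsPGroup p R)
    (hR : R ≠ ⊥) : ∃ z ∈ omg p R, z ≠ 1 := by
  have h0 : Nontrivial R := (Subgroup.nontrivial_iff_ne_bot R).mpr hR
  have h1 : Nontrivial (Subgroup.center R) := hP.center_nontrivial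
  have h2 : IsPGroup p (Subgroup.center R) := hP.to_subgroup _
  obtain ⟨n, hn⟩ := (IsPGroup.iff_card).mp h2
  have h3 : n ≠ 0 := by
    rintro rfl
    rw [pow_zero] at hn
    have := Finite.one_lt_card (α := Subgroup.center R)
    omega
  have h4 : p ∣ Nat.card (Subgroup.center R) := by
    rw [hn]; exact dvd_pow_self p h3
  obtain ⟨z, hz⟩ := exists_prime_orderOf_dvd_card' p h4
  refine ⟨((z : R) : P), ⟨(z : R).2, fun g hg => ?_, ?_⟩, ?_⟩
  · have := Subgroup.mem_center_iff.mp z.2 ⟨g, hg⟩
    exact congrArg Subtype.val this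
  · have h5 : z ^ p = 1 := by rw [← hz]; exact pow_orderOf_eq_one z
    exact congrArg (fun y : Subgroup.center R => ((y : R) : P)) h5
  · intro h
    have h6 : z = 1 := Subtype.ext (Subtype.ext h)
    rw [h6, orderOf_one] at hz
    exact hp.out.one_lt.ne hz

theorem eq_one_of_mem_aux (n : ℕ) : ∀ (P : Type*) [Group P] [Finite P], Nat.card P = n →
    ∀ R : Subgroup P, R.Normal → IsPGroup p R → ∀ u ∈ R,
      u ∈ Subgroup.normalClosure {u ^ p} → u = 1 := by
  induction n using Nat.strong_induction_on with
  | _ n ih =>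
    intro P _ _ hn R hR hP u huR hu
    by_cases hs : R = ⊥
    · subst hs
      exact Subgroup.mem_bot.mp huR
    obtain ⟨z, hz, hz1⟩ := exists_omg R hP hs
    let N : Subgroup P := omg p R
    have hN : N.Normal := omg_normal R
    have hcard : Nat.card (P ⧸ N) < n := by
      have h1 := Subgroup.card_eq_card_quotient_mul_card_subgroup N
      rw [hn] at h1
      have h2 : 1 < Nat.card N := by
        have : Nontrivial N := ⟨⟨z, hz⟩, 1, fun h => hz1 (congrArg Subtype.val h)⟩
        exact Finite.one_lt_card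
      have h3 : 0 < Nat.card (P ⧸ N) := Nat.card_pos
      nlinarith
    have h5 : (u : P ⧸ N) = 1 := by
      refine ih _ hcard (P ⧸ N) rfl (R.map (QuotientGroup.mk' N))
        (hR.map _ (QuotientGroup.mk'_surjective N)) (hP.map _) _ ⟨u, huR, rfl⟩ ?_
      have h6 : ((Subgroup.normalClosure {u ^ p}).map (QuotientGroup.mk' N)) ≤
          Subgroup.normalClosure {((u : P ⧸ N)) ^ p} := by
        rw [Subgroup.map_le_iff_le_comap]
        refine Subgroup.normalClosure_le_normal ?_
        intro x hx
        rw [Set.mem_singleton_iff] at hx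
        subst hx
        refine Subgroup.subset_normalClosure ?_
        rfl
      exact h6 ⟨u, hu, rfl⟩
    rw [QuotientGroup.eq_one_iff] at h5
    have h7 : u ^ p = 1 := h5.2.2
    rw [h7] at hu
    have h8 : Subgroup.normalClosure {(1 : P)} ≤ ⊥ := by
      refine Subgroup.normalClosure_le_normal ?_
      intro x hx
      simpa using hx
    simpa using h8 hu

/-- an element of a normal `p`-subgroup of a finite group is trivial if it is in the normal closure
of its `p`-th power -/
theorem eq_one_of_mem {P : Type*} [Group P] [Finite P] {R : Subgroup P} (hR : R.Normal)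
    (hP : IsPGroup p R) {u : P} (huR : u ∈ R)
    (hu : u ∈ Subgroup.normalClosure {u ^ p}) : u = 1 :=
  eq_one_of_mem_aux _ P rfl R hR hP u huR hu

variable {L : Type*} [Group L] {I : Type*} {Q₁ : Type} [Group Q₁]

/-- homomorphisms to finite groups, mapping `ker π₁` to a `p`-group, which kill the relators with
index in `J` kill all -/
def Kills (p : ℕ) (π₁ : L →* Q₁) (w : I → L) (q : I → ℕ) (J : Finset I) : Prop :=
  ∀ (P : Type) [Group P] [Finite P] (f : L →* P), IsPGroup p (π₁.ker.map f) →
    (∀ i ∈ J, f (w i ^ q i) = 1) → ∀ i, f (w i ^ q i) = 1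

/-- **Dropping relators.** -/
theorem exists_drop [DecidableEq I] [Finite Q₁] (π₁ : L →* Q₁) (w : I → L) (q s : I → ℕ)
    (hq : ∀ i, q i = orderOf (π₁ (w i)) * p ^ s i) (n : ℕ) : ∀ J : Finset I, J.card = n →
    Kills p π₁ w q J → ∃ J' : Finset I, J' ⊆ J ∧ Kills p π₁ w q J' ∧ ∀ i ∈ J',
      ∃ (P : Type) (_ : Group P) (_ : Finite P) (f : L →* P), IsPGroup p (π₁.ker.map f) ∧
        (∀ k, f (w k ^ q k) = 1) ∧ orderOf (f (w i)) = q i := by
  induction n using Nat.strong_induction_on with
  | _ n ih =>
    intro J hJ hK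
    by_cases hall : ∀ i ∈ J, ∃ (P : Type) (_ : Group P) (_ : Finite P)
        (f : L →* P), IsPGroup p (π₁.ker.map f) ∧ (∀ k, f (w k ^ q k) = 1) ∧
          orderOf (f (w i)) = q i
    · exact ⟨J, subset_rfl, hK, hall⟩
    push Not at hall
    obtain ⟨i, hi, hbad⟩ := hall
    have hπ₁ : ∀ k, π₁ (w k ^ q k) = 1 := by
      intro k
      rw [map_pow, hq k, pow_mul, pow_orderOf_eq_one, one_pow]
    have hbot : IsPGroup p (π₁.ker.map π₁) := by
      have : π₁.ker.map π₁ = ⊥ := by
        rw [eq_bot_iff]
        rintro _ ⟨x, hx, rfl⟩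
        exact hx
      rw [this]
      exact IsPGroup.of_bot
    have hs : s i ≠ 0 := by
      intro h0
      refine hbad Q₁ inferInstance inferInstance π₁ hbot hπ₁ ?_
      rw [hq i, h0, pow_zero, mul_one]
    obtain ⟨t, ht⟩ := Nat.exists_eq_succ_of_ne_zero hs
    have hqi : q i = orderOf (π₁ (w i)) * p ^ t * p := by
      rw [hq i, ht, Nat.succ_eq_add_one, pow_succ, mul_assoc]
    have hopos : 0 < orderOf (π₁ (w i)) := orderOf_pos _
    have key : ∀ (P : Type) [Group P] [Finite P] (f : L →* P), f.ker ≤ π₁.ker →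
        IsPGroup p (π₁.ker.map f) →
        (∀ k ∈ J, f (w k ^ q k) = 1) → f (w i) ^ (orderOf (π₁ (w i)) * p ^ t) = 1 := by
      intro P _ _ f hfker hP hf
      have h1 := hK P f hP hf
      have h2 := hbad P inferInstance inferInstance f hP h1
      have h3 : orderOf (f (w i)) ∣ q i := orderOf_dvd_of_pow_eq_one (by
        rw [← map_pow]; exact h1 i)
      have h4 : orderOf (π₁ (w i)) ∣ orderOf (f (w i)) := by
        refine orderOf_dvd_of_pow_eq_one ?_
        rw [← map_pow]
        refine hfker ?_
        rw [MonoidHom.mem_ker, map_pow, pow_orderOf_eq_one]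
      obtain ⟨m, hm⟩ := h4
      rw [hq i, hm] at h3
      have h5 : m ∣ p ^ s i := Nat.dvd_of_mul_dvd_mul_left hopos h3
      obtain ⟨r, hr, rfl⟩ := (Nat.dvd_prime_pow hp.out).mp h5
      have h6 : r ≤ t := by
        by_contra hlt
        have h7 : r = s i := by omega
        rw [h7] at hm
        exact h2 (by rw [hm, hq i])
      rw [← orderOf_dvd_iff_pow_eq_one, hm]
      exact Nat.mul_dvd_mul_left _ (pow_dvd_pow p h6)
    have hK' : Kills p π₁ w q (J.erase i) := by
      intro P _ _ f hP hf
      -- restrict to the range of `(π₁, f)`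
      let g : L →* Q₁ × P := π₁.prod f
      let R := g.range
      let f' : L →* R := g.rangeRestrict
      have hf's : Function.Surjective f' := g.rangeRestrict_surjective
      have hker : f'.ker ≤ π₁.ker := by
        intro x hx
        have h1 : g x = 1 := congrArg Subtype.val hx
        exact congrArg Prod.fst h1
      let R₁ : Subgroup R := π₁.ker.map f'
      have hR₁ : R₁.Normal := (inferInstance : π₁.ker.Normal).map f' hf's
      have hPR : IsPGroup p R₁ := by
        rintro ⟨_, x, hx, rfl⟩
        obtain ⟨k, hk⟩ := hP ⟨f x, x, hx, rfl⟩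
        refine ⟨k, Subtype.ext (Subtype.ext (Prod.ext ?_ ?_))⟩
        · change (π₁ x) ^ p ^ k = 1
          rw [MonoidHom.mem_ker.mp hx, one_pow]
        · exact congrArg Subtype.val hk
      have hf' : ∀ k ∈ J.erase i, f' (w k ^ q k) = 1 := fun k hk =>
        Subtype.ext (Prod.ext (hπ₁ k) (hf k hk))
      set v : R := f' (w i ^ (orderOf (π₁ (w i)) * p ^ t)) with hv
      have hvp : f' (w i ^ q i) = v ^ p := by
        rw [hv, hqi, pow_mul, map_pow]
      have hvR : v ∈ R₁ := by
        refine ⟨w i ^ (orderOf (π₁ (w i)) * p ^ t), ?_, rfl⟩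
        change _ ∈ π₁.ker
        rw [MonoidHom.mem_ker, map_pow, pow_mul, pow_orderOf_eq_one, one_pow]
      have hv1 : v = 1 := by
        refine eq_one_of_mem (p := p) hR₁ hPR hvR ?_
        let K : Subgroup R := Subgroup.normalClosure {v ^ p}
        have hKR : K ≤ R₁ := by
          refine Subgroup.normalClosure_le_normal ?_
          intro x hx
          rw [Set.mem_singleton_iff] at hx
          subst hx
          exact R₁.pow_mem hvR p
        have h1 : ∀ k ∈ J, ((QuotientGroup.mk' K).comp f') (w k ^ q k) = 1 := by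
          intro k hk
          by_cases hki : k = i
          · subst hki
            rw [MonoidHom.comp_apply, hvp]
            exact (QuotientGroup.eq_one_iff _).mpr (Subgroup.subset_normalClosure rfl)
          · rw [MonoidHom.comp_apply, hf' k (Finset.mem_erase.mpr ⟨hki, hk⟩), map_one]
        have hkerK : ((QuotientGroup.mk' K).comp f').ker ≤ π₁.ker := by
          intro x hx
          have h2 : f' x ∈ K := (QuotientGroup.eq_one_iff _).mp hx
          obtain ⟨y, hy, hxy⟩ := hKR h2
          have h3 : x * y⁻¹ ∈ f'.ker := by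
            rw [MonoidHom.mem_ker, map_mul, map_inv, ← hxy, mul_inv_cancel]
          have h4 := mul_mem (hker h3) hy
          simpa using h4
        have hpK : IsPGroup p (π₁.ker.map ((QuotientGroup.mk' K).comp f')) := by
          rw [← Subgroup.map_map]
          exact hPR.map _
        have h2 := key (R ⧸ K) ((QuotientGroup.mk' K).comp f') hkerK hpK h1
        rw [← map_pow, MonoidHom.comp_apply] at h2
        exact (QuotientGroup.eq_one_iff _).mp h2
      have hall : ∀ k ∈ J, f (w k ^ q k) = 1 := by
        intro k hk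
        by_cases hki : k = i
        · subst hki
          have h3 : f' (w k ^ q k) = 1 := by rw [hvp, hv1, one_pow]
          exact congrArg (fun y : R => (y : Q₁ × P).2) h3
        · exact hf k (Finset.mem_erase.mpr ⟨hki, hk⟩)
      exact hK P f hP hall
    obtain ⟨J', h1, h2, h3⟩ := ih _ (by
      have := Finset.card_erase_lt_of_mem hi
      omega) (J.erase i) rfl hK'
    exact ⟨J', h1.trans (Finset.erase_subset _ _), h2, h3⟩

end Vale.Agent.P192.H382
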