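import Mathlib

/-!
# P192: groups with a subgroup of finite index mapping onto `ℤ`
-/

namespace Vale.Agent.P192.H382

/-- there is a surjective homomorphism to `ℤ` -/
def OntoZ (G : Type*) [Group G] : Prop :=
  ∃ f : G →* Multiplicative ℤ, Function.Surjective f

/-- some subgroup of finite index maps onto `ℤ` -/
def VirtZ (G : Type*) [Group G] : Prop :=
  ∃ H : Subgroup G, H.FiniteIndex ∧ OntoZ H

theorem exists_surj {H : Type*} [Group H] (f : H →* Multiplicative ℤ) (h : H) (hh : f h ≠ 1) :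
    ∃ g : H →* Multiplicative ℤ, Function.Surjective g := by
  let R : AddSubgroup ℤ := (MonoidHom.toAdditive f).range
  obtain ⟨a, ha⟩ := Int.subgroup_cyclic R
  have hmem : ∀ x : H, a ∣ (f x).toAdd := by
    intro x
    have h1 : (f x).toAdd ∈ R := ⟨Additive.ofMul x, rfl⟩
    rw [ha, AddSubgroup.mem_closure_singleton] at h1
    obtain ⟨n, hn⟩ := h1
    exact ⟨n, by rw [← hn, smul_eq_mul, mul_comm]⟩
  have ha0 : a ≠ 0 := by
    rintro rfl
    have := hmem h
    rw [zero_dvd_iff] at this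
    exact hh (Multiplicative.toAdd.injective this)
  have haR : a ∈ R := by
    rw [ha]
    exact AddSubgroup.subset_closure rfl
  obtain ⟨h₀, hh₀⟩ := haR
  let g : H →* Multiplicative ℤ :=
    { toFun := fun x => Multiplicative.ofAdd ((f x).toAdd / a)
      map_one' := by simp
      map_mul' := by
        intro x y
        rw [map_mul, toAdd_mul, Int.add_ediv_of_dvd_left (hmem x), ofAdd_add] }
  refine ⟨g, fun z => ⟨(Additive.toMul h₀) ^ z.toAdd, ?_⟩⟩
  have h2 : g (Additive.toMul h₀) = Multiplicative.ofAdd 1 := by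
    change Multiplicative.ofAdd ((f (Additive.toMul h₀)).toAdd / a) = _
    have : (f (Additive.toMul h₀)).toAdd = a := hh₀
    rw [this, Int.ediv_self ha0]
  rw [map_zpow, h2, ← ofAdd_zsmul]
  simp

theorem VirtZ.not_periodic {G : Type*} [Group G] (h : VirtZ G) : ∃ g : G, ¬ IsOfFinOrder g := by
  obtain ⟨H, -, f, hf⟩ := h
  obtain ⟨x, hx⟩ := hf (Multiplicative.ofAdd 1)
  refine ⟨x, fun hfin => ?_⟩
  obtain ⟨n, hn, hxn⟩ := isOfFinOrder_iff_pow_eq_one.mp hfin
  have h1 : x ^ n = 1 := Subtype.ext hxn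
  have h2 := congrArg f h1
  rw [map_pow, hx, map_one f, ← ofAdd_nsmul] at h2
  have h3 : n • (1 : ℤ) = 0 := h2
  simp at h3
  omega

theorem VirtZ.of_range {Γ G : Type*} [Group Γ] [Group G] (ψ : Γ →* G)
    (hψ : ψ.range.FiniteIndex) (h : VirtZ G) : VirtZ Γ := by
  obtain ⟨H, hH, f, hf⟩ := h
  obtain ⟨x, hx⟩ := hf (Multiplicative.ofAdd 1)
  obtain ⟨n, hn, -, γ, hγ⟩ := Subgroup.exists_pow_mem_of_index_ne_zero hψ.index_ne_zero (x : G)
  have hmem : γ ∈ H.comap ψ := by
    rw [Subgroup.mem_comap, hγ]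
    exact H.pow_mem x.2 n
  have hfi : (H.comap ψ).FiniteIndex :=
    ⟨by
      have h1 : H.relIndex ⊤ ≠ 0 := by rw [Subgroup.relIndex_top_right]; exact hH.index_ne_zero
      have h2 := Subgroup.relIndex_comap_ne_zero ψ h1
      rwa [Subgroup.comap_top, Subgroup.relIndex_top_right] at h2⟩
  refine ⟨H.comap ψ, hfi, exists_surj (f.comp (ψ.subgroupComap H)) ⟨γ, hmem⟩ ?_⟩
  have h1 : ψ.subgroupComap H ⟨γ, hmem⟩ = x ^ n := Subtype.ext hγ
  rw [MonoidHom.comp_apply, h1, map_pow, hx, ← ofAdd_nsmul]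
  intro h2
  have h3 : n • (1 : ℤ) = 0 := h2
  simp at h3
  omega

end Vale.Agent.P192.H382
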