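import Vale.Agent.P192.H382.Fprod
import Vale.Agent.P192.H382.PGrp
import Vale.Agent.P192.H382.Virt

/-!
# P192: relative `p`-deficiency at least one, finitely many relators
-/

namespace Vale.Agent.P192.H382

open Module

variable {p : ℕ} [hp : Fact p.Prime]

/-- a surjection to a finite group with exact orders for the relators in `J` -/
theorem exists_quot {L : Type*} [Group L] {I : Type*} [Fintype I] {Q₁ : Type} [Group Q₁]
    [Finite Q₁] (π₁ : L →* Q₁) (w : I → L) (q s : I → ℕ)
    (hq : ∀ i, q i = orderOf (π₁ (w i)) * p ^ s i) :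
    ∃ J : Finset I, Kills p π₁ w q J ∧ ∃ (Q : Type) (_ : Group Q) (_ : Fintype Q)
      (π : L →* Q), IsPGroup p (π₁.ker.map π) ∧ Function.Surjective π ∧
      (∀ i, π (w i ^ q i) = 1) ∧ (∀ i ∈ J, orderOf (π (w i)) = q i) ∧
      ∀ S : Subgroup L, Nat.card (S.map π₁) ≤ Nat.card (S.map π) := by
  classical
  obtain ⟨J, -, hJ, hP⟩ := exists_drop (p := p) π₁ w q s hq _ Finset.univ rfl
    (fun P _ _ f _ hf i => hf i (Finset.mem_univ i))
  refine ⟨J, hJ, ?_⟩
  choose P iG iF f hPP hf1 hf2 using hP
  let eJ := J.equivFin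
  let P' : Fin J.card → Type := fun i => P (eJ.symm i).1 (eJ.symm i).2
  let _ : ∀ i, Group (P' i) := fun i => iG (eJ.symm i).1 (eJ.symm i).2
  have _ : ∀ i, Finite (P' i) := fun i => iF (eJ.symm i).1 (eJ.symm i).2
  let f' : ∀ i, L →* P' i := fun i => f (eJ.symm i).1 (eJ.symm i).2
  let F : L →* Q₁ × ∀ i, P' i := π₁.prod (MonoidHom.pi fun i => f' i)
  have hπ₁ : ∀ k, π₁ (w k ^ q k) = 1 := by
    intro k
    rw [map_pow, hq k, pow_mul, pow_orderOf_eq_one, one_pow]
  have hF : ∀ i, F (w i ^ q i) = 1 := fun i =>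
    Prod.ext (hπ₁ i) (funext fun k => hf1 (eJ.symm k).1 (eJ.symm k).2 i)
  refine ⟨F.range, inferInstance, Fintype.ofFinite _, F.rangeRestrict, ?_,
    F.rangeRestrict_surjective, fun i => Subtype.ext (hF i), fun i hi => ?_, fun S => ?_⟩
  · rintro ⟨_, x, hx, rfl⟩
    choose l hl using fun i => hPP (eJ.symm i).1 (eJ.symm i).2 ⟨f' i x, x, hx, rfl⟩
    refine ⟨∑ i, l i, Subtype.ext (Subtype.ext (Prod.ext ?_ (funext fun i => ?_)))⟩
    · change (π₁ x) ^ _ = 1
      rw [MonoidHom.mem_ker.mp hx, one_pow]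
    · change (f' i x) ^ p ^ (∑ j, l j) = 1
      have h1 : l i ≤ ∑ j, l j :=
        Finset.single_le_sum (fun i _ => Nat.zero_le (l i)) (Finset.mem_univ i)
      obtain ⟨m, hm⟩ := Nat.exists_eq_add_of_le h1
      have h2 : (f' i x) ^ p ^ l i = 1 := congrArg Subtype.val (hl i)
      rw [hm, pow_add, pow_mul, h2, one_pow]
  · refine Nat.dvd_antisymm (orderOf_dvd_of_pow_eq_one ?_) ?_
    · rw [← map_pow]
      exact Subtype.ext (hF i)
    · rw [← hf2 i hi]
      let e : F.range →* P' (eJ ⟨i, hi⟩) :=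
        ((Pi.evalMonoidHom P' (eJ ⟨i, hi⟩)).comp (MonoidHom.snd _ _)).comp F.range.subtype
      have h1 : e (F.rangeRestrict (w i)) = f' (eJ ⟨i, hi⟩) (w i) := rfl
      have h2 : ∀ k : J, k = ⟨i, hi⟩ → orderOf (f k.1 k.2 (w i)) = orderOf (f i hi (w i)) := by
        rintro k rfl
        rfl
      have h3 := h2 (eJ.symm (eJ ⟨i, hi⟩)) (eJ.symm_apply_apply _)
      rw [← h3]
      change orderOf (f' (eJ ⟨i, hi⟩) (w i)) ∣ _
      rw [← h1]
      exact orderOf_map_dvd e _
  · let e : F.range →* Q₁ := (MonoidHom.fst _ _).comp F.range.subtype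
    have h1 : S.map π₁ = (S.map F.rangeRestrict).map e := by
      rw [Subgroup.map_map]
      rfl
    rw [h1]
    exact Nat.card_le_card_of_surjective
      (e.subgroupMap (S.map F.rangeRestrict)) (e.subgroupMap_surjective _)

variable {ι : Type*} {A : ι → Type*} [∀ j, Group (A j)] {X : Type*}
  {K : Type*} {C : K → Type*} [∀ k, Group (C k)]

/-- the free product of the groups `A j` and of the free group on `X`, with `α k c` and `β k c`
identified for `c` in `C k` -/
abbrev Amalg (α β : ∀ k, C k →* FProd A X) : Type _ :=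
  FProd A X ⧸ Subgroup.normalClosure (Set.range fun z : Σ k, C k => α z.1 z.2 * (β z.1 z.2)⁻¹)

/-- the image of a factor -/
def fac (α β : ∀ k, C k →* FProd A X) (j : ι) : Subgroup (Amalg α β) :=
  ((QuotientGroup.mk' _).comp (incl j)).range

theorem amalg_eq {α β : ∀ k, C k →* FProd A X} (k : K) (c : C k) :
    (QuotientGroup.mk (α k c) : Amalg α β) = QuotientGroup.mk (β k c) := by
  rw [QuotientGroup.eq]
  have h1 : α k c * (β k c)⁻¹ ∈ Subgroup.normalClosure
    (Set.range fun z : Σ k, C k => α z.1 z.2 * (β z.1 z.2)⁻¹) :=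
      Subgroup.subset_normalClosure ⟨⟨k, c⟩, rfl⟩
  have h2 := Subgroup.normalClosure_normal.conj_mem _ (inv_mem h1) (α k c)⁻¹
  simpa [mul_assoc] using h2

/-- homomorphisms from the amalgam -/
def desc {α β : ∀ k, C k →* FProd A X} {M : Type*} [Group M] (f : FProd A X →* M)
    (hf : ∀ k c, f (α k c) = f (β k c)) : Amalg α β →* M :=
  QuotientGroup.lift _ f (by
    refine Subgroup.normalClosure_le_normal ?_
    rintro _ ⟨z, rfl⟩
    simp [hf, MonoidHom.mem_ker])

variable [Fintype ι] [Fintype X] [Fintype K] [∀ k, Finite (C k)] {I : Type*} [Fintype I]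

/-- **Relative `p`-deficiency at least one.** -/
theorem fin_case (α β : ∀ k, C k →* FProd A X) {Q₁ : Type} [Group Q₁] [Finite Q₁]
    (π₁ : Amalg α β →* Q₁) (w : I → Amalg α β) (q s : I → ℕ)
    (hq : ∀ i, q i = orderOf (π₁ (w i)) * p ^ s i)
    (hsum : ∑ i, (1 : ℝ) / q i + ∑ j, (1 : ℝ) / Nat.card ((fac α β j).map π₁) +
      ∑ k, (1 - (1 : ℝ) / Nat.card (C k)) ≤ Fintype.card ι + Fintype.card X - 1) :
    ∃ H : Subgroup (Amalg α β ⧸ Subgroup.normalClosure (Set.range fun i => w i ^ q i)),
      H.Normal ∧ H.FiniteIndex ∧ ∃ f : H →* Multiplicative ℤ, Function.Surjective f := by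
  classical
  have _ : ∀ k, Fintype (C k) := fun k => Fintype.ofFinite _
  obtain ⟨J, hJ, Q, _, _, π', hQ, hπ', hk1, hord, himg⟩ := exists_quot π₁ w q s hq
  have hQpos : (0 : ℝ) < Fintype.card Q := by exact_mod_cast Fintype.card_pos
  let π : FProd A X →* Q := π'.comp (QuotientGroup.mk' _)
  have hπ : Function.Surjective π := hπ'.comp (QuotientGroup.mk'_surjective _)
  have hαβ : ∀ k c, π (α k c) = π (β k c) := fun k c => congrArg π' (amalg_eq k c)
  choose v hv using fun i => QuotientGroup.mk_surjective (w i)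
  have himgeq : ∀ j, img π j = (fac α β j).map π' := by
    intro j
    unfold img fac
    rw [← MonoidHom.range_comp]
    rfl
  -- the rank count
  have hrank : ∑ i : J, Fintype.card Q / q i.1 +
      ∑ k, (Fintype.card Q - Nat.card (Q ⧸ (π.comp (α k)).range)) + finrank ℤ (Zer (der π)) +
      (Fintype.card Q - 1) < finrank ℤ (Par ι X Q) := by
    have h1 : finrank ℤ (Par ι X Q) = Fintype.card ι * Fintype.card Q +
        Fintype.card X * Fintype.card Q := by
      simp [Module.finrank_prod, Module.finrank_pi_fintype]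
    have h2 := finrank_Zer π
    have h3 : (∑ i : J, ((Fintype.card Q / q i.1 : ℕ) : ℝ)) ≤
        Fintype.card Q * ∑ i, (1 : ℝ) / q i := by
      calc (∑ i : J, ((Fintype.card Q / q i.1 : ℕ) : ℝ))
          ≤ ∑ i : J, Fintype.card Q * ((1 : ℝ) / q i.1) := by
            refine Finset.sum_le_sum fun i _ => ?_
            refine Nat.cast_div_le.trans (le_of_eq ?_)
            ring
        _ = ∑ i ∈ J, Fintype.card Q * ((1 : ℝ) / q i) :=
            Finset.sum_coe_sort J fun i => Fintype.card Q * ((1 : ℝ) / q i)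
        _ ≤ ∑ i, Fintype.card Q * ((1 : ℝ) / q i) := by
            refine Finset.sum_le_sum_of_subset_of_nonneg (Finset.subset_univ J) ?_
            intro i _ _
            positivity
        _ = _ := by rw [Finset.mul_sum]
    have h4 : (∑ j, (Nat.card (Q ⧸ img π j) : ℝ)) ≤
        Fintype.card Q * ∑ j, (1 : ℝ) / Nat.card ((fac α β j).map π₁) := by
      rw [Finset.mul_sum]
      refine Finset.sum_le_sum fun j _ => ?_
      have h5 := Subgroup.card_eq_card_quotient_mul_card_subgroup (img π j)
      have h6 : (0 : ℝ) < Nat.card (img π j) := by exact_mod_cast Nat.card_pos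
      have h7 : (0 : ℝ) < Nat.card ((fac α β j).map π₁) := by exact_mod_cast Nat.card_pos
      have h8 : (Nat.card ((fac α β j).map π₁) : ℝ) ≤ Nat.card (img π j) := by
        rw [himgeq]; exact_mod_cast himg _
      have h9 : (Fintype.card Q : ℝ) = Nat.card (Q ⧸ img π j) * Nat.card (img π j) := by
        rw [← Nat.card_eq_fintype_card]; exact_mod_cast h5
      rw [h9, mul_one_div, le_div_iff₀ h7]
      exact mul_le_mul_of_nonneg_left h8 (by positivity)
    have h4' : (∑ k, ((Fintype.card Q - Nat.card (Q ⧸ (π.comp (α k)).range) : ℕ) : ℝ)) ≤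
        Fintype.card Q * ∑ k, (1 - (1 : ℝ) / Nat.card (C k)) := by
      rw [Finset.mul_sum]
      refine Finset.sum_le_sum fun k _ => ?_
      have h5 := Subgroup.card_eq_card_quotient_mul_card_subgroup (π.comp (α k)).range
      have h6 : (0 : ℝ) < Nat.card (C k) := by exact_mod_cast Nat.card_pos
      have h8 : Nat.card (π.comp (α k)).range ≤ Nat.card (C k) :=
        Nat.card_le_card_of_surjective _ (π.comp (α k)).rangeRestrict_surjective
      have h9 : (Fintype.card Q : ℝ) = Nat.card (Q ⧸ (π.comp (α k)).range) *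
          Nat.card (π.comp (α k)).range := by
        rw [← Nat.card_eq_fintype_card]; exact_mod_cast h5
      have h10 : Nat.card (Q ⧸ (π.comp (α k)).range) ≤ Fintype.card Q := by
        rw [← Nat.card_eq_fintype_card]
        exact Nat.card_le_card_of_surjective _ QuotientGroup.mk_surjective
      rw [Nat.cast_sub h10, mul_sub, mul_one]
      have h11 : (Fintype.card Q : ℝ) * (1 / Nat.card (C k)) ≤
          Nat.card (Q ⧸ (π.comp (α k)).range) := by
        rw [mul_one_div, div_le_iff₀ h6, h9]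
        refine mul_le_mul_of_nonneg_left ?_ (by positivity)
        exact_mod_cast h8
      linarith
    have h2' : (finrank ℤ (Zer (der π)) : ℝ) ≤ ∑ j, (Nat.card (Q ⧸ img π j) : ℝ) := by
      exact_mod_cast h2
    have h10 := mul_le_mul_of_nonneg_left hsum hQpos.le
    have h11 : ((Fintype.card Q - 1 : ℕ) : ℝ) = Fintype.card Q - 1 := by
      rw [Nat.cast_sub Fintype.card_pos]; simp
    have h12 : ((∑ i : J, Fintype.card Q / q i.1 +
      ∑ k, (Fintype.card Q - Nat.card (Q ⧸ (π.comp (α k)).range)) + finrank ℤ (Zer (der π)) +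
      (Fintype.card Q - 1) : ℕ) : ℝ) < (finrank ℤ (Par ι X Q) : ℕ) := by
      rw [h1]
      rw [Nat.cast_add, Nat.cast_add, Nat.cast_add, h11, Nat.cast_sum, Nat.cast_sum,
        Nat.cast_add, Nat.cast_mul, Nat.cast_mul]
      nlinarith
    exact_mod_cast h12
  obtain ⟨w₀, hw1, hw2, g₀, hg₀, hne⟩ := exists_der (der_isDer π) hπ (fun i : J => v i.1)
    (fun i : J => q i.1) (fun i => by rw [← hord i.1 i.2, ← hv]; rfl) C α β hαβ hrank
  let D : FProd A X → Q → ℤ := fun g => der π g w₀
  have hD : ∀ g h x, D (g * h) x = D g x + D h (x * π g) := by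
    intro g h x
    have := congrFun (der_isDer π g h w₀) x
    exact this
  have hDαβ : ∀ k c, D (α k c) = D (β k c) := hw2
  have hk1' : ∀ i, π (v i ^ q i) = 1 := by
    intro i
    have h1 := hk1 i
    rw [← hv i] at h1
    exact h1
  -- all relators die
  have hall : ∀ i, D (v i ^ q i) = 0 := by
    intro i
    funext x
    have h1 : ∀ r : ℕ, ((p ^ r : ℕ) : ℤ) ∣ D (v i ^ q i) x := by
      intro r
      let Dr : FProd A X → Q → ZMod (p ^ r) := fun g x => (D g x : ZMod (p ^ r))
      have hDr : ∀ g h x, Dr (g * h) x = Dr g x + Dr h (x * π g) := by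
        intro g h x
        simp only [Dr, hD]
        push_cast
        rfl
      have hne : NeZero (p ^ r) := ⟨pow_ne_zero _ hp.out.ne_zero⟩
      have hfin : Finite (Multiplicative (Q → ZMod (p ^ r)) ⋊[trHom (Q := Q) (ZMod (p ^ r))] Q) :=
        Finite.of_equiv (Multiplicative (Q → ZMod (p ^ r)) × Q)
          SemidirectProduct.equivProd.symm
      have hmk : ∀ k c, homOf π Dr hDr (α k c) = homOf π Dr hDr (β k c) := by
        intro k c
        refine SemidirectProduct.ext ?_ (hαβ k c)
        refine Multiplicative.toAdd.injective ?_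
        funext y
        change ((D (α k c) y : ℤ) : ZMod (p ^ r)) = ((D (β k c) y : ℤ) : ZMod (p ^ r))
        rw [hDαβ]
      have hval : ∀ i, desc (homOf π Dr hDr) hmk (w i ^ q i) =
          homOf π Dr hDr (v i ^ q i) := by
        intro i
        rw [← hv i]
        rfl
      have hpg : IsPGroup p (π₁.ker.map (desc (homOf π Dr hDr) hmk)) := by
        refine isPGroup_map_sdp _ _ ?_
        have h3 : SemidirectProduct.rightHom.comp (desc (homOf π Dr hDr) hmk) = π' := by
          refine QuotientGroup.monoidHom_ext _ ?_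
          rfl
        rw [h3]
        exact hQ
      have h2 := hJ (Multiplicative (Q → ZMod (p ^ r)) ⋊[trHom (Q := Q) (ZMod (p ^ r))] Q)
        (desc (homOf π Dr hDr) hmk) hpg (fun k hkJ => by
          rw [hval, homOf_eq_one]
          refine ⟨?_, hk1' k⟩
          funext y
          have h3 : D (v k ^ q k) = 0 := hw1 ⟨k, hkJ⟩
          simp [Dr, h3]) i
      rw [hval, homOf_eq_one] at h2
      have h4 := congrFun h2.1 x
      exact (ZMod.intCast_zmod_eq_zero_iff_dvd _ _).mp h4
    by_contra h0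
    have h5 := h1 (D (v i ^ q i) x).natAbs
    have h6 := Nat.le_of_dvd (Int.natAbs_pos.mpr h0) (Int.natCast_dvd.mp h5)
    have h7 : (D (v i ^ q i) x).natAbs < p ^ (D (v i ^ q i) x).natAbs :=
      Nat.lt_pow_self hp.out.one_lt
    omega
  have hmk : ∀ k c, homOf π D hD (α k c) = homOf π D hD (β k c) := by
    intro k c
    refine SemidirectProduct.ext ?_ (hαβ k c)
    refine Multiplicative.toAdd.injective ?_
    exact hDαβ k c
  let F := desc (homOf π D hD) hmk
  have hF : Subgroup.normalClosure (Set.range fun i => w i ^ q i) ≤ F.ker := by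
    refine Subgroup.normalClosure_le_normal ?_
    rintro _ ⟨i, rfl⟩
    change desc (homOf π D hD) hmk (w i ^ q i) = 1
    rw [← hv i]
    have h1 : homOf π D hD (v i ^ q i) = 1 := homOf_eq_one.mpr ⟨hall i, hk1' i⟩
    exact h1
  let F' := QuotientGroup.lift _ F hF
  let ρ := (SemidirectProduct.rightHom (N := Multiplicative (Q → ℤ)) (G := Q)
    (φ := trHom (Q := Q) ℤ)).comp F'
  obtain ⟨x, hx⟩ : ∃ x, D g₀ x ≠ 0 := by
    by_contra h
    push Not at h
    exact hne (funext h)
  have hρ : ρ (QuotientGroup.mk (QuotientGroup.mk g₀)) = 1 := hg₀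
  refine ⟨ρ.ker, inferInstance, ?_, ?_⟩
  · have : Finite Q := inferInstance
    exact Subgroup.finiteIndex_ker ρ
  · let f₁ : ρ.ker →* Multiplicative ℤ :=
      { toFun := fun h => Multiplicative.ofAdd ((F' h.1).left.toAdd x)
        map_one' := by simp
        map_mul' := by
          intro a b
          have ha : (F' a.1).right = 1 := a.2
          rw [Subgroup.coe_mul, map_mul, SemidirectProduct.mul_left, ha, map_one]
          rfl }
    refine exists_surj f₁ ⟨QuotientGroup.mk (QuotientGroup.mk g₀), hρ⟩ ?_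
    exact fun h => hx h

end Vale.Agent.P192.H382
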