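import Vale.Agent.P192.H382.Sdp

/-!
# P192: derivations of free products
-/

namespace Vale.Agent.P192.H382

open Module

variable {ι : Type*} (A : ι → Type*) [∀ j, Group (A j)] (X : Type*)

/-- the free product of the groups `A j` and of the free group on `X` -/
abbrev FProd : Type _ := Monoid.Coprod (Monoid.CoprodI A) (FreeGroup X)

variable {A X}

/-- the inclusion of a factor -/
def incl (j : ι) : A j →* FProd A X := Monoid.Coprod.inl.comp Monoid.CoprodI.of

/-- the generators of the free factor -/
def gen (x : X) : FProd A X := Monoid.Coprod.inr (FreeGroup.of x)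

variable {Q : Type*} [Group Q] (π : FProd A X →* Q)

/-- the space of parameters -/
abbrev Par (ι X Q : Type*) : Type _ := (ι → Q → ℤ) × (X → Q → ℤ)

/-- coordinates -/
def pr₁ (j : ι) : Par ι X Q →ₗ[ℤ] (Q → ℤ) := LinearMap.proj j ∘ₗ LinearMap.fst ℤ _ _

/-- coordinates -/
def pr₂ (x : X) : Par ι X Q →ₗ[ℤ] (Q → ℤ) := LinearMap.proj x ∘ₗ LinearMap.snd ℤ _ _

/-- inner derivations on a factor -/
def facHom (j : ι) : A j →* Big (Par ι X Q) Q where
  toFun a := ⟨Multiplicative.ofAdd (act (π (incl j a)) ∘ₗ pr₁ j - pr₁ j), π (incl j a)⟩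
  map_one' := by
    refine SemidirectProduct.ext (Multiplicative.toAdd.injective ?_)
      (map_one (π.comp (incl j)))
    refine LinearMap.ext fun w => funext fun x => ?_
    simp
  map_mul' a b := by
    refine SemidirectProduct.ext (Multiplicative.toAdd.injective ?_)
      (map_mul (π.comp (incl j)) a b)
    refine LinearMap.ext fun w => funext fun x => ?_
    rw [SemidirectProduct.mul_left]
    change (act (π (incl j (a * b))) (pr₁ j w) - pr₁ j w) x =
      (act (π (incl j a)) (pr₁ j w) - pr₁ j w) x +
        act (π (incl j a)) (act (π (incl j b)) (pr₁ j w) - pr₁ j w) x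
    rw [map_mul, map_mul, act_mul, map_sub]
    simp only [Pi.sub_apply]
    ring

/-- the universal homomorphism -/
def uni : FProd A X →* Big (Par ι X Q) Q :=
  Monoid.Coprod.lift (Monoid.CoprodI.lift (facHom π))
    (FreeGroup.lift fun x => ⟨Multiplicative.ofAdd (pr₂ x), π (gen x)⟩)

theorem uni_incl (j : ι) (a : A j) : uni π (incl j a) =
    ⟨Multiplicative.ofAdd (act (π (incl j a)) ∘ₗ pr₁ j - pr₁ j), π (incl j a)⟩ := by
  simp [uni, incl, facHom]

theorem uni_gen (x : X) : uni π (gen x) = ⟨Multiplicative.ofAdd (pr₂ x), π (gen x)⟩ := by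
  simp [uni, gen]

theorem uni_right : SemidirectProduct.rightHom.comp (uni π) = π := by
  refine Monoid.Coprod.hom_ext ?_ ?_
  · refine Monoid.CoprodI.ext_hom _ _ fun j => MonoidHom.ext fun a => ?_
    have := congrArg (fun z => z.right) (uni_incl π j a)
    exact this
  · refine FreeGroup.ext_hom _ _ fun x => ?_
    have := congrArg (fun z => z.right) (uni_gen π x)
    exact this

/-- the universal derivation -/
def der (g : FProd A X) : Par ι X Q →ₗ[ℤ] (Q → ℤ) := (uni π g).left.toAdd

theorem der_isDer : IsDer π (der π) := by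
  have := isDer_of_hom (uni π)
  rwa [uni_right] at this

theorem der_incl (j : ι) (a : A j) (w : Par ι X Q) :
    der π (incl j a) w = act (π (incl j a)) (w.1 j) - w.1 j := by
  have := congrArg (fun z => z.left.toAdd) (uni_incl π j a)
  have h := congrArg (fun f => f w) this
  exact h

theorem der_gen (x : X) (w : Par ι X Q) : der π (gen x) w = w.2 x := by
  have := congrArg (fun z => z.left.toAdd) (uni_gen π x)
  exact congrArg (fun f => f w) this

/-- the image of a factor -/
def img (j : ι) : Subgroup Q := (π.comp (incl j)).range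

theorem finrank_Zer [Fintype ι] [Fintype X] [Fintype Q] :
    finrank ℤ (Zer (der π)) ≤ ∑ j, Nat.card (Q ⧸ img π j) := by
  classical
  let Θ : (∀ j, Q ⧸ img π j → ℤ) →ₗ[ℤ] Par ι X Q :=
    { toFun := fun c => (fun j x => c j x, 0)
      map_add' := by
        intro c d
        refine Prod.ext rfl ?_
        simp
      map_smul' := by
        intro r c
        refine Prod.ext rfl ?_
        simp }
  have hle : Zer (der π) ≤ LinearMap.range Θ := by
    intro w hw
    rw [mem_Zer] at hw
    have h1 : ∀ j, ∀ x y : Q, (x : Q ⧸ img π j) = y → w.1 j x = w.1 j y := by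
      intro j x y hxy
      rw [QuotientGroup.eq] at hxy
      obtain ⟨a, ha⟩ := hxy
      have h2 := hw (incl j a)
      rw [der_incl, sub_eq_zero] at h2
      have h3 := congrFun h2 x
      rw [act_apply] at h3
      have h4 : x * π (incl j a) = y := by
        have : π (incl j a) = x⁻¹ * y := ha
        rw [this, mul_inv_cancel_left]
      rw [← h3, h4]
    refine ⟨fun j c => w.1 j c.out, Prod.ext ?_ ?_⟩
    · funext j x
      exact h1 j _ _ (QuotientGroup.out_eq' _)
    · funext x
      have := hw (gen x)
      rw [der_gen] at this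
      exact this.symm
  refine (Submodule.finrank_mono hle).trans ((LinearMap.finrank_range_le Θ).trans ?_)
  rw [Module.finrank_pi_fintype]
  simp [Nat.card_eq_fintype_card]

end Vale.Agent.P192.H382
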