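import Vale.Agent.P192.H382.Stmt

/-!
# P192: groups of `p`-deficiency at least one
-/

namespace Vale.Agent.P192.H382

variable {p : ℕ} [hp : Fact p.Prime]

/-- the free group as an amalgam -/
def fdat (m : ℕ) : Dat where
  n := 0
  m := m
  r := 0
  A _ := Unit
  gA _ := inferInstance
  C _ := Unit
  gC _ := inferInstance
  fC _ := inferInstance
  α _ := 1
  β _ := 1

/-- the free group as an amalgam -/
def toAm (m : ℕ) : FreeGroup (Fin m) →* (fdat m).L :=
  (QuotientGroup.mk' _).comp Monoid.Coprod.inr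

theorem inr_surj (A : Fin 0 → Type) [∀ j, Group (A j)] (m : ℕ) :
    Function.Surjective (Monoid.Coprod.inr : FreeGroup (Fin m) →* FProd A (Fin m)) := by
  rw [← MonoidHom.range_eq_top, eq_top_iff, ← Monoid.Coprod.range_inl_sup_range_inr]
  refine sup_le ?_ le_rfl
  rintro _ ⟨x, rfl⟩
  have hx : x = 1 := by
    induction x using Monoid.CoprodI.induction_on with
    | one => rfl
    | of i m => exact i.elim0
    | mul a b ha hb => rw [ha, hb, mul_one]
  rw [hx, map_one]
  exact one_mem _

theorem toAm_surj (m : ℕ) : Function.Surjective (toAm m) :=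
  (QuotientGroup.mk'_surjective _).comp (inr_surj (fun _ => Unit) m)

theorem e_fdat (m : ℕ) (π : (fdat m).L →* Unit) : (fdat m).e π = m - 1 := by
  have h1 : IsEmpty (Fin (fdat m).n) := (inferInstance : IsEmpty (Fin 0))
  have h2 : IsEmpty (Fin (fdat m).r) := (inferInstance : IsEmpty (Fin 0))
  unfold Dat.e
  rw [Finset.univ_eq_empty, Finset.univ_eq_empty, Finset.sum_empty, Finset.sum_empty]
  change ((0 : ℕ) : ℝ) + m - 1 - 0 - 0 = _
  simp

theorem NoCover.of_surj {G G' : Type} [Group G] [Group G'] (h : NoCover G') (f : G →* G')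
    (hf : Function.Surjective f) : NoCover G := by
  intro Γ _ _ φ hφ
  refine h Γ (f.comp φ) ?_
  rw [MonoidHom.range_comp]
  constructor
  have h1 := Subgroup.index_map_dvd (H := φ.range) (f := f) hf
  intro h0
  rw [h0] at h1
  exact hφ.index_ne_zero (Nat.eq_zero_of_zero_dvd h1)

theorem pdef (m : ℕ) {I : Type} (w : I → FreeGroup (Fin m)) (s : I → ℕ)
    (hsum : SumLe (fun i => p ^ s i) (m - 1)) :
    NoCover (PresentedGroup (Set.range fun i => w i ^ p ^ s i)) := by
  let w' : I → (fdat m).L := fun i => toAm m (w i)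
  let q : I → ℕ := fun i => p ^ s i
  have hq : Expo p (1 : (fdat m).L →* Unit) w' q := fun i =>
    ⟨s i, by rw [MonoidHom.one_apply, orderOf_one, one_mul]⟩
  have hs : SumLe q ((fdat m).e (1 : (fdat m).L →* Unit)) := by
    rw [e_fdat]
    exact hsum
  let f : FreeGroup (Fin m) →* Quo w' q := (QuotientGroup.mk' _).comp (toAm m)
  have hf : Function.Surjective f := (QuotientGroup.mk'_surjective _).comp (toAm_surj m)
  have hker : Subgroup.normalClosure (Set.range fun i => w i ^ p ^ s i) ≤ f.ker := by
    refine Subgroup.normalClosure_le_normal ?_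
    rintro _ ⟨i, rfl⟩
    change QuotientGroup.mk (toAm m (w i ^ p ^ s i)) = 1
    rw [map_pow]
    exact (QuotientGroup.eq_one_iff _).mpr (Subgroup.subset_normalClosure ⟨i, rfl⟩)
  let h : PresentedGroup (Set.range fun i => w i ^ p ^ s i) →* Quo w' q :=
    QuotientGroup.lift _ f hker
  have hh : Function.Surjective h := by
    intro y
    obtain ⟨x, rfl⟩ := hf y
    exact ⟨QuotientGroup.mk x, rfl⟩
  exact (part2'' (p := p) (fdat m) 1 (fun j => j.elim0) w' q hq hs).of_surj h hh

end Vale.Agent.P192.H382
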