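import Vale.Agent.P192.H382.Dim

/-!
# P192: derivations as homomorphisms to semidirect products
-/

namespace Vale.Agent.P192.H382

open Module

variable {Q : Type*} [Group Q]

section linear

variable (W : Type*) [AddCommGroup W]

/-- postcomposition with the right translations -/
def post (q : Q) : (W →ₗ[ℤ] (Q → ℤ)) ≃+ (W →ₗ[ℤ] (Q → ℤ)) where
  toFun f := act q ∘ₗ f
  invFun f := act q⁻¹ ∘ₗ f
  left_inv f := by
    ext w x
    simp
  right_inv f := by
    ext w x
    simp
  map_add' f g := by
    ext w x
    simp

/-- the action on the linear maps -/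
def postHom : Q →* MulAut (Multiplicative (W →ₗ[ℤ] (Q → ℤ))) where
  toFun q := AddEquiv.toMultiplicative (post W q)
  map_one' := by
    refine MulEquiv.ext fun f => Multiplicative.toAdd.injective ?_
    refine LinearMap.ext fun w => funext fun x => ?_
    simp [post]
  map_mul' q r := by
    refine MulEquiv.ext fun f => Multiplicative.toAdd.injective ?_
    refine LinearMap.ext fun w => funext fun x => ?_
    simp [post, mul_assoc]

/-- the receiving group -/
abbrev Big (Q : Type*) [Group Q] : Type _ :=
  Multiplicative (W →ₗ[ℤ] (Q → ℤ)) ⋊[postHom (Q := Q) W] Q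

variable {W}

theorem isDer_of_hom {L : Type*} [Group L] (F : L →* Big W Q) :
    IsDer (SemidirectProduct.rightHom.comp F) (fun g => (F g).left.toAdd) := by
  intro g h w
  simp only [map_mul, SemidirectProduct.mul_left, toAdd_mul, LinearMap.add_apply]
  rfl

end linear

section functions

variable (R : Type*) [AddCommGroup R]

/-- right translations of functions with values in `R` -/
def tr (q : Q) : (Q → R) ≃+ (Q → R) where
  toFun v x := v (x * q)
  invFun v x := v (x * q⁻¹)
  left_inv v := by ext x; simp
  right_inv v := by ext x; simp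
  map_add' v w := rfl

/-- the action on functions -/
def trHom : Q →* MulAut (Multiplicative (Q → R)) where
  toFun q := AddEquiv.toMultiplicative (tr R q)
  map_one' := by
    refine MulEquiv.ext fun f => Multiplicative.toAdd.injective ?_
    refine funext fun x => ?_
    simp [tr]
  map_mul' q r := by
    refine MulEquiv.ext fun f => Multiplicative.toAdd.injective ?_
    refine funext fun x => ?_
    simp [tr, mul_assoc]

variable {R}

/-- the homomorphism of a derivation -/
def homOf {L : Type*} [Group L] (π : L →* Q) (D : L → Q → R)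
    (hD : ∀ g h x, D (g * h) x = D g x + D h (x * π g)) :
    L →* Multiplicative (Q → R) ⋊[trHom (Q := Q) R] Q where
  toFun g := ⟨Multiplicative.ofAdd (D g), π g⟩
  map_one' := by
    refine SemidirectProduct.ext ?_ (map_one π)
    refine Multiplicative.toAdd.injective ?_
    ext x
    have := hD 1 1 x
    simpa using this
  map_mul' g h := by
    refine SemidirectProduct.ext ?_ (map_mul π g h)
    refine Multiplicative.toAdd.injective ?_
    ext x
    rw [SemidirectProduct.mul_left]
    exact hD g h x

theorem homOf_eq_one {L : Type*} [Group L] {π : L →* Q} {D : L → Q → R}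
    {hD : ∀ g h x, D (g * h) x = D g x + D h (x * π g)} {g : L} :
    homOf π D hD g = 1 ↔ D g = 0 ∧ π g = 1 := by
  constructor
  · intro h
    exact ⟨congrArg (fun z => z.left.toAdd) h, congrArg (fun z => z.right) h⟩
  · rintro ⟨h1, h2⟩
    exact SemidirectProduct.ext (congrArg Multiplicative.ofAdd h1) h2

theorem isPGroup_map_sdp {p : ℕ} {r : ℕ} {L : Type*} [Group L]
    (f : L →* Multiplicative (Q → ZMod (p ^ r)) ⋊[trHom (Q := Q) (ZMod (p ^ r))] Q)
    (S : Subgroup L) (hS : IsPGroup p (S.map (SemidirectProduct.rightHom.comp f))) :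
    IsPGroup p (S.map f) := by
  rintro ⟨_, x, hx, rfl⟩
  obtain ⟨k, hk⟩ := hS ⟨_, x, hx, rfl⟩
  have h1 : SemidirectProduct.rightHom (f x ^ p ^ k) = 1 := by
    rw [map_pow]
    exact congrArg Subtype.val hk
  have h2 : f x ^ p ^ k = SemidirectProduct.inl (f x ^ p ^ k).left := by
    refine SemidirectProduct.ext ?_ ?_
    · rw [SemidirectProduct.left_inl]
    · rw [SemidirectProduct.right_inl]
      exact h1
  have h3 : ((f x ^ p ^ k).left) ^ p ^ r = 1 := by
    refine Multiplicative.toAdd.injective ?_
    funext y
    rw [toAdd_pow, toAdd_one, Pi.smul_apply, nsmul_eq_mul, ZMod.natCast_self, zero_mul]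
    rfl
  refine ⟨k + r, Subtype.ext ?_⟩
  change f x ^ p ^ (k + r) = 1
  rw [pow_add, pow_mul, h2, ← map_pow, h3, map_one]

end functions

end Vale.Agent.P192.H382
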