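import Vale.Agent.P192.H382.All

/-!
# P192: statements on quotients of amalgams
-/

namespace Vale.Agent.P192.H382

/-- each exponent is the order of `π (w i)` times a power of `p` -/
def Expo (p : ℕ) {L Q I : Type} [Group L] [Group Q] (π : L →* Q) (w : I → L) (q : I → ℕ) :
    Prop :=
  ∀ i, ∃ s : ℕ, q i = orderOf (π (w i)) * p ^ s

/-- the quotient of the group `L` by the relators `w i ^ q i` -/
def Quo {L I : Type} [Group L] (w : I → L) (q : I → ℕ) : Type :=
  L ⧸ Subgroup.normalClosure (Set.range fun i => w i ^ q i)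

instance {L I : Type} [Group L] (w : I → L) (q : I → ℕ) : Group (Quo w q) :=
  QuotientGroup.Quotient.group (Subgroup.normalClosure (Set.range fun i => w i ^ q i))

/-- a normal subgroup of finite index maps onto `ℤ` -/
def NormZ (G : Type) [Group G] : Prop :=
  ∃ H : Subgroup G, H.Normal ∧ H.FiniteIndex ∧ OntoZ H

/-- each finitely presented group with a homomorphism to `G` whose image has finite index has a
subgroup of finite index which maps onto `ℤ`, and an element of infinite order -/
def NoCover (G : Type) [Group G] : Prop :=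
  ∀ (Γ : Type) [Group Γ] [Group.IsFinitelyPresented Γ] (φ : Γ →* G), φ.range.FiniteIndex →
    VirtZ Γ ∧ ∃ γ : Γ, ¬ IsOfFinOrder γ

/-- all finite partial sums of the `1 / q i` are at most `e` -/
def SumLe {I : Type} (q : I → ℕ) (e : ℝ) : Prop :=
  ∀ F : Finset I, ∑ i ∈ F, (1 : ℝ) / q i ≤ e

/-- `n` groups `A j`, a number `m` and `r` pairs of homomorphisms `α k`, `β k` of finite groups
`C k` to the free product of the `A j` and of the free group of rank `m` -/
structure Dat : Type 1 where
  /-- number of groups -/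
  n : ℕ
  /-- rank of the free factor -/
  m : ℕ
  /-- number of pairs of homomorphisms -/
  r : ℕ
  /-- the groups -/
  A : Fin n → Type
  gA : ∀ j, Group (A j)
  /-- the finite groups -/
  C : Fin r → Type
  gC : ∀ k, Group (C k)
  fC : ∀ k, Finite (C k)
  /-- the homomorphisms -/
  α : ∀ k, C k →* FProd A (Fin m)
  /-- the homomorphisms -/
  β : ∀ k, C k →* FProd A (Fin m)

attribute [instance] Dat.gA Dat.gC Dat.fC

/-- the free product of the groups `A j` and of the free group of rank `m` -/
def Dat.Fr (D : Dat) : Type := FProd D.A (Fin D.m)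

instance (D : Dat) : Group D.Fr := (inferInstance : Group (FProd D.A (Fin D.m)))

/-- the relators `α k c * (β k c)⁻¹` -/
def Dat.rel (D : Dat) (z : Σ k, D.C k) : D.Fr :=
  (D.α z.1 z.2 : D.Fr) * (D.β z.1 z.2 : D.Fr)⁻¹

/-- the free product with `α k c` and `β k c` identified -/
def Dat.L (D : Dat) : Type := D.Fr ⧸ Subgroup.normalClosure (Set.range D.rel)

instance (D : Dat) : Group D.L :=
  QuotientGroup.Quotient.group (Subgroup.normalClosure (Set.range D.rel))

/-- the projection -/
def Dat.proj (D : Dat) : D.Fr →* D.L := QuotientGroup.mk' _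

/-- the homomorphism of the factor `A j` to `L` -/
def Dat.ofA (D : Dat) (j : Fin D.n) : D.A j →* D.L := D.proj.comp (incl j)

/-- minus the Euler characteristic, a factor counted by the order of its image -/
noncomputable def Dat.e (D : Dat) {Q : Type} [Group Q] (π : D.L →* Q) : ℝ :=
  D.n + D.m - 1 - ∑ j, (1 : ℝ) / Nat.card (π.comp (D.ofA j)).range -
    ∑ k, (1 - (1 : ℝ) / Nat.card (D.C k))

variable {p : ℕ} [Fact p.Prime] (D : Dat) {Q : Type} [Group Q] [Finite Q] (π : D.L →* Q)

/-- the homomorphism of the amalgam -/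
def Dat.hom (D : Dat) {Q : Type} [Group Q] (π : D.L →* Q) : Amalg D.α D.β →* Q := π

omit [Finite Q] in
theorem e_eq : D.e π = Fintype.card (Fin D.n) + Fintype.card (Fin D.m) - 1 -
    ∑ j, (1 : ℝ) / Nat.card ((fac D.α D.β j).map (D.hom π)) -
      ∑ k, (1 - (1 : ℝ) / Nat.card (D.C k)) := by
  have h1 : ∀ j, (π.comp (D.ofA j)).range = (fac D.α D.β j).map (D.hom π) := fun j =>
    MonoidHom.range_comp (D.hom π) ((QuotientGroup.mk' _).comp (incl j))
  unfold Dat.e
  rw [Fintype.card_fin, Fintype.card_fin]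
  simp only [h1]

theorem part1 {I : Type} [Fintype I] (w : I → D.L) (q : I → ℕ)
    (hq : Expo p π w q) (hsum : ∑ i, (1 : ℝ) / q i ≤ D.e π) : NormZ (Quo w q) := by
  choose s hs using hq
  rw [e_eq] at hsum
  exact fin_case D.α D.β (D.hom π) w q s hs (by linarith)

theorem part2 (hA : ∀ j, Group.FG (D.A j)) {I : Type} (w : I → D.L) (q : I → ℕ)
    (hq : Expo p π w q) (hsum : SumLe q (D.e π))
    (Γ : Type) [Group Γ] [Group.IsFinitelyPresented Γ] (φ : Γ →* Quo w q)
    (hφ : φ.range.FiniteIndex) : VirtZ Γ := by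
  choose s hs using hq
  rw [e_eq] at hsum
  exact covers hA D.α D.β (D.hom π) w q s hs (fun F => by have := hsum F; linarith) φ hφ

theorem part2' (hA : ∀ j, Group.FG (D.A j)) {I : Type} (w : I → D.L) (q : I → ℕ)
    (hq : Expo p π w q) (hsum : SumLe q (D.e π)) : Infinite (Quo w q) := by
  by_contra hinf
  rw [not_infinite_iff_finite] at hinf
  refine not_virtZ_of_finite Unit (part2 (p := p) D π hA w q hq hsum Unit 1 ?_)
  exact inferInstance

theorem part2'' (hA : ∀ j, Group.FG (D.A j)) {I : Type} (w : I → D.L) (q : I → ℕ)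
    (hq : Expo p π w q) (hsum : SumLe q (D.e π)) : NoCover (Quo w q) := by
  intro Γ _ _ φ hφ
  have h := part2 (p := p) D π hA w q hq hsum Γ φ hφ
  exact ⟨h, h.not_periodic⟩

theorem part3 (hA : ∀ j, Group.FG (D.A j)) (h : 0 < D.e π) :
    ∃ q : D.L → ℕ, Expo p π (fun g => g) q ∧ SumLe q (D.e π) ∧
      ∀ x : Quo (fun g : D.L => g) q, IsOfFinOrder x := by
  rw [e_eq] at h
  obtain ⟨q, s, h1, h2, h3, -⟩ := exists_periodic (p := p) hA D.α D.β (D.hom π) (by linarith)
  refine ⟨q, fun g => ⟨s g, h1 g⟩, fun F => ?_, h3⟩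
  have h4 : ∀ F : Finset (Amalg D.α D.β), ∑ g ∈ F, (1 : ℝ) / q g ≤ D.e π := fun F => by
    have := h2 F
    rw [e_eq]
    linarith
  exact h4 F

end Vale.Agent.P192.H382
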